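import Vale.Agent.P197.Specht.Class

/-!
# P197: occurrence in the tensor square of the staircase Specht module
-/

namespace Vale.Agent.P197

noncomputable section

open scoped TensorProduct

variable {m : ℕ} {W : Type} [AddCommGroup W] [Module ℂ W]

/-- The tensor square of the staircase Specht module, as a type. -/
def StairSquare (m : ℕ) : Type := Specht.S m ⊗[ℂ] Specht.S m

instance squareAddCommGroup (m : ℕ) : AddCommGroup (StairSquare m) :=
  TensorProduct.addCommGroup

instance squareModule (m : ℕ) : Module ℂ (StairSquare m) :=
  TensorProduct.instModule

/-- The tensor square of the staircase Specht representation. -/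
def stairSquareRep (m : ℕ) : Representation ℂ (Specht.G m) (StairSquare m) :=
  (Specht.specht m).tprod (Specht.specht m)

/-- There is a nonzero equivariant linear map from `σ` to the tensor square of the staircase
Specht module. -/
def Occurs (σ : Representation ℂ (Specht.G m) W) : Prop :=
  ∃ T : W →ₗ[ℂ] StairSquare m, T ≠ 0 ∧ ∀ g x, T (σ g x) = stairSquareRep m g (T x)

/-- There is an injective equivariant linear map from `σ` to the tensor square of the staircase
Specht module. -/
def Embeds (σ : Representation ℂ (Specht.G m) W) : Prop :=
  ∃ T : W →ₗ[ℂ] StairSquare m, Function.Injective T ∧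
    ∀ g x, T (σ g x) = stairSquareRep m g (T x)

end

end Vale.Agent.P197
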