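import Mathlib

/-!
# Averaging: coefficient functions and occurrences in tensor squares

For any representation `ρ` of a finite group, a nonzero pairing of a matrix coefficient of `σ`
with a product of two coefficient functions of `ρ` gives a nonzero equivariant map from `σ` to
the tensor square of `ρ`.
-/

namespace Vale.Agent.P197

noncomputable section

open scoped TensorProduct

variable {k G V W : Type*} [Field k] [Group G]
  [AddCommGroup V] [Module k V] [AddCommGroup W] [Module k W]

/-- The space of coefficient functions `g ↦ φ (ρ g v)` of a representation. -/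
def coefFns (ρ : Representation k G V) : Submodule k (G → k) :=
  Submodule.span k (Set.range fun p : (V →ₗ[k] k) × V => fun g => p.1 (ρ g p.2))

lemma mem_coefFns (ρ : Representation k G V) (φ : V →ₗ[k] k) (v : V) :
    (fun g => φ (ρ g v)) ∈ coefFns ρ :=
  Submodule.subset_span ⟨(φ, v), rfl⟩

variable [Fintype G]

/-- A nonzero triple pairing of coefficient functions gives a nonzero equivariant map into the
tensor square. -/
theorem exists_map_to_square (ρ : Representation k G V) (σ : Representation k G W)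
    {f h : G → k} (hf : f ∈ coefFns ρ) (hh : h ∈ coefFns ρ) (μ : W →ₗ[k] k) (u : W)
    (hne : ∑ g, f g * h g * μ (σ g⁻¹ u) ≠ 0) :
    ∃ T : W →ₗ[k] V ⊗[k] V, T ≠ 0 ∧ ∀ g x, T (σ g x) = ρ.tprod ρ g (T x) := by
  classical
  let P : (G → k) → (G → k) → k := fun a b => ∑ g, a g * b g * μ (σ g⁻¹ u)
  obtain ⟨p, q, hpq⟩ : ∃ p q : (V →ₗ[k] k) × V,
      P (fun g => p.1 (ρ g p.2)) (fun g => q.1 (ρ g q.2)) ≠ 0 := by
    by_contra hc
    push Not at hc
    have step : ∀ p : (V →ₗ[k] k) × V, P (fun g => p.1 (ρ g p.2)) h = 0 := by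
      intro p
      refine Submodule.span_induction (p := fun b _ => P (fun g => p.1 (ρ g p.2)) b = 0)
        ?_ ?_ ?_ ?_ hh
      · rintro _ ⟨q, rfl⟩
        exact hc p q
      · simp [P]
      · intro a b _ _ ha hb
        simp only [P, Pi.add_apply, mul_add, add_mul, Finset.sum_add_distrib] at ha hb ⊢
        rw [ha, hb, add_zero]
      · intro r a _ ha
        simp only [P, Pi.smul_apply, smul_eq_mul, mul_left_comm _ r, mul_assoc,
          ← Finset.mul_sum] at ha ⊢
        rw [ha, mul_zero]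
    refine hne (Submodule.span_induction (p := fun a _ => P a h = 0) ?_ ?_ ?_ ?_ hf)
    · rintro _ ⟨p, rfl⟩
      exact step p
    · simp [P]
    · intro a b _ _ ha hb
      simp only [P, Pi.add_apply, add_mul, Finset.sum_add_distrib] at ha hb ⊢
      rw [ha, hb, add_zero]
    · intro r a _ ha
      simp only [P, Pi.smul_apply, smul_eq_mul, mul_assoc, ← Finset.mul_sum] at ha ⊢
      rw [ha, mul_zero]
  let T : W →ₗ[k] V ⊗[k] V :=
    ∑ g : G, (μ.comp (σ g⁻¹)).smulRight (ρ.tprod ρ g (p.2 ⊗ₜ[k] q.2))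
  have hT : ∀ x, T x = ∑ g : G, μ (σ g⁻¹ x) • ρ.tprod ρ g (p.2 ⊗ₜ[k] q.2) := by
    intro x
    simp [T, LinearMap.sum_apply]
  refine ⟨T, ?_, ?_⟩
  · intro h0
    let Φ : V ⊗[k] V →ₗ[k] k := (LinearMap.mul' k k).comp (TensorProduct.map p.1 q.1)
    have h1 : Φ (T u) = 0 := by rw [h0]; simp
    rw [hT, map_sum] at h1
    refine hpq ?_
    rw [← h1]
    refine Finset.sum_congr rfl fun g _ => ?_
    simp [Φ, mul_comm]
  · intro g x
    rw [hT, hT, map_sum]
    refine Fintype.sum_equiv (Equiv.mulLeft g⁻¹) _ _ fun y => ?_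
    have e1 : σ (g⁻¹ * y)⁻¹ x = σ y⁻¹ (σ g x) := by
      rw [← Module.End.mul_apply, ← map_mul, mul_inv_rev, inv_inv]
    have e2 : ρ.tprod ρ g (ρ.tprod ρ (g⁻¹ * y) (p.2 ⊗ₜ[k] q.2))
        = ρ.tprod ρ y (p.2 ⊗ₜ[k] q.2) := by
      rw [← Module.End.mul_apply, ← map_mul, mul_inv_cancel_left]
    rw [Equiv.coe_mulLeft, map_smul, e1, e2]

/-- If `u` is an eigenvector with character `χ` of a subgroup `R`, while the product `f * h`
restricts to `χ` on `R` and vanishes outside it, then `σ` occurs in the tensor square. -/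
theorem exists_map_of_eigenvector [CharZero k] (ρ : Representation k G V)
    (σ : Representation k G W) (R : Subgroup G) (χ : G → k)
    {f h : G → k} (hf : f ∈ coefFns ρ) (hh : h ∈ coefFns ρ)
    (hon : ∀ r ∈ R, f r * h r = χ r) (hoff : ∀ g, g ∉ R → f g * h g = 0)
    {u : W} (hu : u ≠ 0) (heig : ∀ r ∈ R, σ r u = χ r • u) :
    ∃ T : W →ₗ[k] V ⊗[k] V, T ≠ 0 ∧ ∀ g x, T (σ g x) = ρ.tprod ρ g (T x) := by
  classical
  obtain ⟨μ, hμ⟩ := Module.Projective.exists_dual_ne_zero (R := k) hu
  refine exists_map_to_square ρ σ hf hh μ u ?_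
  have key : ∀ g, f g * h g * μ (σ g⁻¹ u) = if g ∈ R then μ u else 0 := by
    intro g
    by_cases hg : g ∈ R
    · rw [if_pos hg, hon g hg, ← smul_eq_mul, ← map_smul, ← map_smul, ← heig g hg,
        ← Module.End.mul_apply, ← map_mul, inv_mul_cancel, map_one, Module.End.one_apply]
    · rw [if_neg hg, hoff g hg, zero_mul]
  simp only [key, ← Finset.sum_filter, Finset.sum_const, nsmul_eq_mul]
  refine mul_ne_zero (Nat.cast_ne_zero.2 ?_) hμ
  exact Finset.card_ne_zero.2 ⟨1, by simp [one_mem]⟩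

end

end Vale.Agent.P197
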